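import Vale.Agent.P291Y.B6

/-!
# The equivariant cohomological Hikita conjecture for quiver gauge theories

`R`, `H`, `A` are the rings `H^*_{G × F}(pt)`, `H^*_F(X)` and `A_F`; the structure maps `R → H` and
`R → A` are the Kirwan map and the coefficient map; `H ≃ A / J` as graded `R`-algebras.
-/

namespace Vale.Agent.Results.P291.EquivariantHikita

open Vale.Agent.P291Y Dat

theorem result (D : Dat) (hν : D.Regular) :
    ∃ (R H A : Type) (_ : CommRing R) (_ : CommRing H) (_ : CommRing A) (_ : Algebra ℂ R)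
      (_ : Algebra ℂ H) (_ : Algebra ℂ A) (_ : Algebra R H) (_ : Algebra R A)
      (cr : CG D.p1 → R) (cl : CG D.XX → H) (cls : ∀ p : D.Pa, AF p → A),
      IsCoh D.p1 R cr ∧ IsCoh D.XX H cl ∧ D.IsCoul A cls ∧
      (∀ k r, IsHG _ k r → ∃ c β, IsHG _ k c ∧ am R H (cr r) = cl c ∧ am R A (cr r) = cls _ β ∧
        (∀ c', IsHG _ k c' → (D.Kirwan r c' ↔ cl c' = cl c)) ∧
        ∀ β', An _ (-k) β' ∧ D.CapRel r β' ↔ β' = β) ∧
      GrIso R H A (D.JJ A cls) (fun k h => ∃ c, IsHG _ k c ∧ h = cl c)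
        fun k a => ∃ p β, An p (-k) β ∧ a = cls p β :=
  final D hν

end Vale.Agent.Results.P291.EquivariantHikita
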